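import Mathlib

/-!
# P291: Coulomb branches of quiver gauge theories and cohomology of Nakajima quiver varieties

Definitions for the final statement: arbitrary finite quiver `Q` (loops and multiple arrows
allowed), arbitrary gauge and framing dimensions, arbitrary flavour torus.
-/

namespace Vale.Agent.P291.Fin

/-- A finite quiver with vertex set `I`, arrow set `E` (an arrow `e` goes from `s e` to `t e`),
gauge dimensions `v i = dim V_i` and framing dimensions `w i = dim W_i`. So
`G = ∏ GL(V_i)` and `N = ⨁_e Hom(V_{s e}, V_{t e}) ⊕ ⨁_i Hom(V_i, W_i)`. -/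
structure QData (I E : Type) where
  /-- source -/
  s : E → I
  /-- target -/
  t : E → I
  /-- gauge dimensions -/
  v : I → ℕ
  /-- framing dimensions -/
  w : I → ℕ

namespace QData

variable {I E : Type} (Q : QData I E)

/-- Index set of the coordinates `a_{i,r}` of the maximal torus `T` of `G` (Chern roots). -/
abbrev Col : Type := Σ i : I, Fin (Q.v i)

/-- Arrows and framing lines `(i, l)`, the summands of `N`. -/
abbrev Fl : Type := E ⊕ (Σ i : I, Fin (Q.w i))

variable (L : Type) [CommRing L]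

/-- `H^*_{T × F}(pt)`, the polynomial ring in the Chern roots over `L = H^*_F(pt)`. -/
def SS : Type := MvPolynomial Q.Col L

noncomputable instance : CommRing (Q.SS L) := AddMonoidAlgebra.commRing

instance [IsDomain L] : IsDomain (Q.SS L) := (inferInstance : IsDomain (MvPolynomial Q.Col L))

variable {L}

/-- The Chern root `a_c`. -/
noncomputable def av (c : Q.Col) : Q.SS L := (MvPolynomial.X c : MvPolynomial Q.Col L)

/-- The elements of `H^*_F(pt)`. -/
noncomputable def cv (x : L) : Q.SS L := (MvPolynomial.C x : MvPolynomial Q.Col L)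

/-- The Weyl group of `G`. -/
abbrev Wy : Type := ∀ i : I, Equiv.Perm (Fin (Q.v i))

/-- The Weyl group permutes the Chern roots. -/
def act (σ : Q.Wy) : Equiv.Perm Q.Col := Equiv.sigmaCongrRight σ

/-- The action of the Weyl group on `H^*_{T × F}(pt)`. -/
noncomputable def perm (σ : Q.Wy) : Q.SS L →+* Q.SS L :=
  (MvPolynomial.rename (Q.act σ) : MvPolynomial Q.Col L →ₐ[L] MvPolynomial Q.Col L).toRingHom

variable (L)

/-- The Weyl group invariants in `H^*_{T × F}(pt)`. -/
noncomputable def inv : Subring (Q.SS L) :=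
  ⨅ σ : Q.Wy, RingHom.eqLocus (Q.perm σ) (RingHom.id (Q.SS L))

/-- `R = H^*_{G × F}(pt)`. -/
def RR : Type := Q.inv L

noncomputable instance : CommRing (Q.RR L) := Subring.toCommRing (Q.inv L)

/-- The inclusion of `R` into `H^*_{T × F}(pt)`. -/
noncomputable def toSS : Q.RR L →+* Q.SS L := (Q.inv L).subtype

variable {L}

/-! ### The Coulomb branch -/

section coulomb

variable [Fintype I] [DecidableEq I] [Fintype E]

/-- For flavour weights `m : Fl → L = H^*_F(pt)`, the factor `∏ ξ ^ max (0, -⟨ξ, lam⟩)` of the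
abelianized monopole operator of the cocharacter `lam` of `T`, over the weights `ξ` of `N`:
`a_{t e, p} - a_{s e, r} + m_e` for arrows and `m_{i,l} - a_{i,r}` for framing lines. -/
noncomputable def rc (m : Q.Fl → L) (lam : Q.Col → ℤ) : Q.SS L :=
  (∏ e : E, ∏ p : Fin (Q.v (Q.t e)), ∏ r : Fin (Q.v (Q.s e)),
      (Q.av ⟨Q.t e, p⟩ - Q.av ⟨Q.s e, r⟩ + Q.cv (m (Sum.inl e))) ^
        (lam ⟨Q.s e, r⟩ - lam ⟨Q.t e, p⟩).toNat) *
    ∏ i : I, ∏ r : Fin (Q.v i), ∏ l : Fin (Q.w i),
      (Q.cv (m (Sum.inr ⟨i, l⟩)) - Q.av ⟨i, r⟩) ^ (lam ⟨i, r⟩).toNat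

/-- `∏ (a_c - a_d)` over `c` in `S` and `d` outside `S` at the same vertex. -/
noncomputable def eu (S : Finset Q.Col) : Q.SS L :=
  ∏ c ∈ S, ∏ d ∈ Finset.univ.filter (fun d => d.1 = c.1 ∧ d ∉ S), (Q.av c - Q.av d)

variable (L) [IsDomain L]

/-- The field of fractions of `H^*_{T × F}(pt)`. -/
def KK : Type := FractionRing (Q.SS L)

noncomputable instance : Field (Q.KK L) := FractionRing.field (Q.SS L)

/-- The inclusion of `H^*_{T × F}(pt)` into its field of fractions. -/
noncomputable def toKK : Q.SS L →+* Q.KK L := (algebraMap (Q.SS L) (FractionRing (Q.SS L)) :)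

/-- The group algebra of the cocharacter lattice `ℤ^Col` of `T` over that field: the localized
Coulomb branch algebra of the torus. -/
def Lau : Type := AddMonoidAlgebra (Q.KK L) (Q.Col → ℤ)

noncomputable instance : CommRing (Q.Lau L) := AddMonoidAlgebra.commRing

variable {L}

/-- The monomial `x u^lam`. -/
noncomputable def single (lam : Q.Col → ℤ) (x : Q.KK L) : Q.Lau L :=
  (AddMonoidAlgebra.single lam x : AddMonoidAlgebra (Q.KK L) (Q.Col → ℤ))

/-- The coefficient of `u^lam`. -/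
noncomputable def coeff (x : Q.Lau L) (lam : Q.Col → ℤ) : Q.KK L :=
  AddMonoidAlgebra.coeff (x : AddMonoidAlgebra (Q.KK L) (Q.Col → ℤ)) lam

variable (L)

/-- The inclusion of `H^*_{T × F}(pt)` as the multiples of `u^0`. -/
noncomputable def toLau : Q.SS L →+* Q.Lau L :=
  ((AddMonoidAlgebra.singleZeroRingHom :
    Q.KK L →+* AddMonoidAlgebra (Q.KK L) (Q.Col → ℤ)).comp (Q.toKK L) :)

variable {L}

/-- The cocharacter `n · 1_S`. -/
def ind (n : ℤ) (S : Finset Q.Col) : Q.Col → ℤ := fun c => if c ∈ S then n else 0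

/-- The dressed minuscule monopole operator of the cocharacter `n · 1_S` (used for `n = ± 1`) with
dressing `f`, abelianized: `∑_{σ ∈ W} σ (f · r^{n 1_S} / ∏_{c ∈ S, d ∉ S} (a_c - a_d) · u^{n 1_S})`. -/
noncomputable def mon (m : Q.Fl → L) (n : ℤ) (S : Finset Q.Col) (f : Q.SS L) : Q.Lau L :=
  ∑ σ : Q.Wy, Q.single (Q.ind n (S.map (Q.act σ).toEmbedding))
    (Q.toKK L (Q.perm σ f * Q.rc m (Q.ind n (S.map (Q.act σ).toEmbedding))) /
      Q.toKK L (Q.eu (S.map (Q.act σ).toEmbedding)))

/-- The subring of the localized algebra generated by `R` and the dressed minuscule monopole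
operators of all cocharacters `± 1_S`. -/
noncomputable def alg (m : Q.Fl → L) : Subring (Q.Lau L) :=
  Subring.closure ({x | ∃ r : Q.RR L, x = Q.toLau L (Q.toSS L r)} ∪
    {x | ∃ (S : Finset Q.Col) (f : Q.SS L), x = Q.mon m 1 S f ∨ x = Q.mon m (-1) S f})

/-- The Coulomb branch algebra `A_F`. -/
def AF (m : Q.Fl → L) : Type := Q.alg m

noncomputable instance (m : Q.Fl → L) : CommRing (Q.AF m) := Subring.toCommRing (Q.alg m)

/-- The inclusion of `A_F` into the localized algebra. -/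
noncomputable def val (m : Q.Fl → L) : Q.AF m →+* Q.Lau L := (Q.alg m).subtype

/-- The inclusion of `R` into `A_F`. -/
noncomputable def toAF (m : Q.Fl → L) : Q.RR L →+* Q.AF m :=
  ((Q.toLau L).comp (Q.toSS L)).codRestrict (Q.alg m)
    (fun r => Subring.subset_closure (Or.inl ⟨r, rfl⟩))

/-- The `ν`-weight of a cocharacter: `ν` paired with its topological charge. -/
def nuWt (ν : I → ℤ) (lam : Q.Col → ℤ) : ℤ := ∑ c : Q.Col, ν c.1 * lam c

/-- The ideal of `A_F` generated by all homogeneous elements of nonzero `ν`-weight. -/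
noncomputable def J (m : Q.Fl → L) (ν : I → ℤ) : Ideal (Q.AF m) :=
  Ideal.span {x | ∃ k : ℤ, k ≠ 0 ∧
    ∀ lam : Q.Col → ℤ, Q.coeff (Q.val m x) lam ≠ 0 → Q.nuWt ν lam = k}

/-- The coordinate ring `ℂ[Y^ν] = A_F ⧸ J` of the scheme-theoretic fixed locus. -/
def CY (m : Q.Fl → L) (ν : I → ℤ) : Type := Q.AF m ⧸ Q.J m ν

noncomputable instance (m : Q.Fl → L) (ν : I → ℤ) : CommRing (Q.CY m ν) :=
  Ideal.Quotient.commRing (Q.J m ν)

/-- The coefficient map `φ_C` from `R` to the coordinate ring of the fixed locus. -/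
noncomputable def phiC (m : Q.Fl → L) (ν : I → ℤ) : Q.RR L →+* Q.CY m ν :=
  (Ideal.Quotient.mk (Q.J m ν)).comp (Q.toAF m)

end coulomb

/-! ### The quiver variety -/

section higgs

variable [Fintype I] [DecidableEq I] [Fintype E]

/-- The product of all weights of `N` that cross the subset `U` of the Chern roots (framing lines
count as leaving `U`). -/
noncomputable def cut (m : Q.Fl → L) (U : Finset Q.Col) : Q.SS L :=
  (∏ e : E, ∏ p : Fin (Q.v (Q.t e)), ∏ r : Fin (Q.v (Q.s e)),
      if ((⟨Q.t e, p⟩ : Q.Col) ∈ U ↔ (⟨Q.s e, r⟩ : Q.Col) ∈ U) then 1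
      else (Q.av ⟨Q.t e, p⟩ - Q.av ⟨Q.s e, r⟩ + Q.cv (m (Sum.inl e)))) *
    ∏ i : I, ∏ r : Fin (Q.v i), ∏ l : Fin (Q.w i),
      if (⟨i, r⟩ : Q.Col) ∈ U then (Q.cv (m (Sum.inr ⟨i, l⟩)) - Q.av ⟨i, r⟩) else 1

/-- The ideal of relations of the hypertoric variety `X_T` of `(T, N)`:
`H^*_F(X_T) = H^*_{T × F}(pt) ⧸ IT`. -/
noncomputable def IT (m : Q.Fl → L) : Ideal (Q.SS L) :=
  Ideal.span {f | ∃ U : Finset Q.Col, U.Nonempty ∧ f = Q.cut m U}

variable (L) in
/-- The product `D` of all roots of `G`. -/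
noncomputable def disc : Q.SS L :=
  ∏ c : Q.Col, ∏ d ∈ Finset.univ.filter (fun d : Q.Col => d.1 = c.1 ∧ d ≠ c), (Q.av c - Q.av d)

/-- `{f ∈ R : D f ∈ IT}`. -/
noncomputable def JD (m : Q.Fl → L) : Ideal (Q.RR L) :=
  ((Q.IT m).colon {Q.disc L}).comap (Q.toSS L)

/-- The flavour weights for the bigger torus `F × (ℂ^*)^E`, where the arrow `e` gets the additional
parameter `T_e`. -/
noncomputable def hat (m : Q.Fl → L) : Q.Fl → MvPolynomial E L
  | Sum.inl e => MvPolynomial.C (m (Sum.inl e)) + MvPolynomial.X e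
  | Sum.inr l => MvPolynomial.C (m (Sum.inr l))

/-- The specialization `T = 0` on polynomials in the Chern roots. -/
noncomputable def spec : Q.SS (MvPolynomial E L) →+* Q.SS L :=
  (MvPolynomial.map MvPolynomial.constantCoeff :
    MvPolynomial Q.Col (MvPolynomial E L) →+* MvPolynomial Q.Col L)

/-- The kernel of the Kirwan map `φ_H : R → H^*_F(X)`: the image under `T = 0` of the ideal
`{g : D g ∈ IT}` for the bigger torus `F × (ℂ^*)^E`. -/
noncomputable def JH (m : Q.Fl → L) : Ideal (Q.RR L) :=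
  Ideal.span {f | ∃ g ∈ Q.JD (Q.hat m), Q.spec (Q.toSS (MvPolynomial E L) g) = Q.toSS L f}

/-- `H^*_F(X)`, presented as the quotient of `R` by the kernel of the Kirwan map. -/
def HX (m : Q.Fl → L) : Type := Q.RR L ⧸ Q.JH m

noncomputable instance (m : Q.Fl → L) : CommRing (Q.HX m) := Ideal.Quotient.commRing (Q.JH m)

/-- The Kirwan map `φ_H : R → H^*_F(X)`. -/
noncomputable def phiH (m : Q.Fl → L) : Q.RR L →+* Q.HX m := Ideal.Quotient.mk (Q.JH m)

end higgs

/-- `ν` is generic: it pairs nontrivially with every nonzero `β ≤ v`. -/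
def Generic [Fintype I] (ν : I → ℤ) : Prop :=
  ∀ β : I → ℕ, (∀ i, β i ≤ Q.v i) → β ≠ 0 → ∑ i, ν i * (β i : ℤ) ≠ 0

/-- The flavour weights in `H^*_F(pt) = ℂ[f_1, …, f_n]` of the torus `F` of rank `n` acting on
the summand `a` of `N` through the character `χ a`. -/
noncomputable def wt {n : ℕ} (χ : Q.Fl → Fin n → ℤ) (a : Q.Fl) : MvPolynomial (Fin n) ℂ :=
  ∑ i, MvPolynomial.C (χ a i : ℂ) * MvPolynomial.X i

end QData

end Vale.Agent.P291.Fin
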