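import Vale.Agent.P291.Fin.Surj

/-!
# The two kernels
-/

set_option linter.unusedSectionVars false
set_option linter.unusedSimpArgs false

open MvPolynomial

namespace Vale.Agent.P291.Fin

section

variable {I E : Type} [Fintype I] [DecidableEq I] [Fintype E] (Q : QData I E)
  {L : Type} [CommRing L] [IsDomain L] (m : Q.Fl → L) (ν : I → ℤ)

theorem mem_IT (f : MvPolynomial Q.Col L) : f ∈ Q.IT m ↔ f ∈ (core Q m).IT := by
  constructor
  · intro hf
    refine Submodule.span_induction
      (p := fun (f : Q.SS L) _ => (f : MvPolynomial Q.Col L) ∈ (core Q m).IT) ?_ ?_ ?_ ?_ hf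
    · rintro x ⟨U, hU, rfl⟩
      exact Ideal.subset_span ⟨U, hU, cut_eq Q m U⟩
    · exact (core Q m).IT.zero_mem
    · exact fun x y _ _ hx hy => (core Q m).IT.add_mem hx hy
    · exact fun a x _ hx => (core Q m).IT.mul_mem_left _ hx
  · intro hf
    refine Submodule.span_induction
      (p := fun (f : MvPolynomial Q.Col L) _ => (f : Q.SS L) ∈ Q.IT m) ?_ ?_ ?_ ?_ hf
    · rintro x ⟨U, hU, rfl⟩
      exact Ideal.subset_span ⟨U, hU, (cut_eq Q m U).symm⟩
    · exact (Q.IT m).zero_mem
    · exact fun x y _ _ hx hy => (Q.IT m).add_mem hx hy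
    · exact fun a x _ hx => (Q.IT m).mul_mem_left _ hx

theorem mem_IT_D (f : MvPolynomial Q.Col L) :
    f * discM Q ∈ Q.IT m ↔ (core Q m).D * f ∈ (core Q m).IT := by
  refine (mem_IT Q m (f * discM Q)).trans ?_
  rw [← discM_eq, mul_comm]

theorem mem_JD (r : Q.RR L) :
    r ∈ Q.JD m ↔ (Q.toSS L r : MvPolynomial Q.Col L) ∈ (core Q m).JD := by
  unfold QData.JD
  rw [Ideal.mem_comap, Submodule.mem_colon_singleton]
  constructor
  · intro h
    exact ⟨(mem_inv Q m _).mp r.2, (mem_IT_D Q m _).mp h⟩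
  · intro h
    exact (mem_IT_D Q m _).mpr h.2

end

section

variable {I E : Type} [Fintype I] [DecidableEq I] [Fintype E] (Q : QData I E)
  {L : Type} [CommRing L] [IsDomain L] [Algebra ℚ L] (m : Q.Fl → L) (ν : I → ℤ)

theorem nonzeroLoops_hat : (core Q (Q.hat m)).NonzeroLoops := by
  classical
  intro a ha
  rcases a with e | l
  · intro h0
    have h1 : (MvPolynomial.C (m (Sum.inl e)) + MvPolynomial.X e : MvPolynomial E L) = 0 := h0
    have h2 := congrArg (MvPolynomial.coeff (Finsupp.single e 1)) h1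
    have h3 : (0 : E →₀ ℕ) ≠ Finsupp.single e 1 := by
      intro h
      have := DFunLike.congr_fun h e
      simp at this
    rw [MvPolynomial.coeff_add, MvPolynomial.coeff_C, if_neg h3, MvPolynomial.coeff_X,
      if_pos rfl, MvPolynomial.coeff_zero, zero_add] at h2
    exact one_ne_zero h2
  · exact absurd ha (by simp [core])

theorem hat_spec (a : Q.Fl) :
    (core Q m).t a = MvPolynomial.constantCoeff ((core Q (Q.hat m)).t a) := by
  rcases a with e | l
  · have : MvPolynomial.constantCoeff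
      (MvPolynomial.C (m (Sum.inl e)) + MvPolynomial.X e : MvPolynomial E L) = m (Sum.inl e) := by
      simp
    exact this.symm
  · have : MvPolynomial.constantCoeff
      (MvPolynomial.C (m (Sum.inr l)) : MvPolynomial E L) = m (Sum.inr l) := by
      simp
    exact this.symm

/-- the kernels of the two maps agree -/
theorem JH_eq (hν : Q.Generic ν)
    (hD : ∀ f : MvPolynomial Q.Col (MvPolynomial E L),
      f ∈ (core Q (Q.hat m)).JC ↔ f ∈ (core Q (Q.hat m)).JD) :
    Q.JH m = RingHom.ker (Q.phiC m ν) := by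
  have hsp : (core Q m).src = (core Q (Q.hat m)).src ∧ (core Q m).tgt = (core Q (Q.hat m)).tgt ∧
      (core Q m).vx = (core Q (Q.hat m)).vx ∧
      ∀ a, (core Q m).t a = MvPolynomial.constantCoeff ((core Q (Q.hat m)).t a) :=
    ⟨rfl, rfl, rfl, hat_spec Q m⟩
  apply le_antisymm
  · unfold QData.JH
    rw [Ideal.span_le]
    rintro r ⟨g, hg, hgr⟩
    rw [SetLike.mem_coe, mem_ker_phiC Q m ν hν]
    rw [mem_JD] at hg
    have h1 := JC_map (core Q m) (core Q (Q.hat m)) MvPolynomial.constantCoeff hsp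
      ((hD _).mpr hg)
    have h2 : (Q.toSS L r : MvPolynomial Q.Col L) =
      MvPolynomial.map MvPolynomial.constantCoeff (Q.toSS (MvPolynomial E L) g :
        MvPolynomial Q.Col (MvPolynomial E L)) := hgr.symm
    rw [h2]
    exact h1
  · intro r hr
    rw [mem_ker_phiC Q m ν hν] at hr
    obtain ⟨f', hf', hf⟩ := JC_lift (core Q m) (core Q (Q.hat m)) (nonzeroLoops_hat Q m)
      MvPolynomial.constantCoeff (fun x => ⟨MvPolynomial.C x, MvPolynomial.constantCoeff_C _ _⟩)
      hsp hr
    exact Ideal.subset_span ⟨⟨f', (mem_inv Q (Q.hat m) _).mpr hf'.1⟩,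
      (mem_JD Q _ _).mpr ((hD _).mp hf'), hf⟩

/-- the final isomorphism -/
theorem main (hν : Q.Generic ν)
    (hD : ∀ f : MvPolynomial Q.Col (MvPolynomial E L),
      f ∈ (core Q (Q.hat m)).JC ↔ f ∈ (core Q (Q.hat m)).JD) :
    ∃ e : Q.HX m ≃+* Q.CY m ν, ∀ r, e (Q.phiH m r) = Q.phiC m ν r := by
  refine ⟨(Ideal.quotEquivOfEq (JH_eq Q m ν hν hD)).trans
    (RingHom.quotientKerEquivOfSurjective (phiC_surjective Q m ν hν)), fun r => ?_⟩
  rfl

end

end Vale.Agent.P291.Fin
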