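import Vale.Agent.P291.Fin.Grade

/-!
# Surjectivity of `φ_C` and its kernel
-/

set_option linter.unusedSectionVars false
set_option linter.unusedSimpArgs false

open MvPolynomial

namespace Vale.Agent.P291.Fin

variable {I E : Type} [Fintype I] [DecidableEq I] [Fintype E] (Q : QData I E)
  {L : Type} [CommRing L] [IsDomain L] (m : Q.Fl → L) (ν : I → ℤ)

/-- the part of nonzero charge -/
noncomputable def red (F : Finset (Option Q.Col) → MvPolynomial Q.Col L) :
    Finset (Option Q.Col) → MvPolynomial Q.Col L :=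
  fun V => if V = ∅ ∨ V = Finset.univ then 0 else F V

theorem red_mem {F : Finset (Option Q.Col) → MvPolynomial Q.Col L}
    (hF : F ∈ (core Q m).Eqv) : red Q F ∈ (core Q m).Eqv := by
  intro σ hσ V
  unfold red
  simp only [TB.vact_eq_empty, TB.vact_eq_univ]
  by_cases h : V = ∅ ∨ V = Finset.univ
  · rw [if_pos h, if_pos h, map_zero]
  · rw [if_neg h, if_neg h, hF σ hσ V]

theorem empty_ne_univ : (∅ : Finset (Option Q.Col)) ≠ Finset.univ := by
  intro h
  have : none ∈ (∅ : Finset (Option Q.Col)) := by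
    rw [h]
    exact Finset.mem_univ _
  simp at this

theorem M_red (F : Finset (Option Q.Col) → MvPolynomial Q.Col L) :
    (core Q m).M F = QD.cst (F ∅ + F Finset.univ) + (core Q m).M (red Q F) := by
  have h1 : (QD.cst (F ∅ + F Finset.univ) : AA Q.Col L) =
      ∑ V : Finset (Option Q.Col), if V = ∅ ∨ V = Finset.univ then
        AddMonoidAlgebra.single (lamV V) (toK (F V) * (core Q m).e (lamV V)) else 0 := by
    rw [← Finset.sum_filter]
    have h2 : Finset.univ.filter (fun V : Finset (Option Q.Col) => V = ∅ ∨ V = Finset.univ) =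
        {∅, Finset.univ} := by
      ext V
      simp
    rw [h2, Finset.sum_pair (empty_ne_univ Q), TB.lamV_empty, lamV_univ, e_zero, mul_one, mul_one]
    unfold QD.cst toK
    rw [map_add, AddMonoidAlgebra.single_add]
  rw [h1]
  unfold QD.M
  rw [← Finset.sum_add_distrib]
  refine Finset.sum_congr rfl fun V _ => ?_
  unfold red
  by_cases h : V = ∅ ∨ V = Finset.univ
  · rw [if_pos h, if_pos h]
    unfold toK
    rw [map_zero, zero_mul, AddMonoidAlgebra.single_zero, add_zero]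
  · rw [if_neg h, if_neg h, zero_add]

theorem red_mem_II {F : Finset (Option Q.Col) → MvPolynomial Q.Col L}
    (hF : F ∈ (core Q m).Eqv) : (core Q m).M (red Q F) ∈ (core Q m).II := by
  apply Submodule.subset_span
  refine ⟨_, red_mem Q m hF, ?_, ?_, rfl⟩
  · unfold red
    rw [if_pos (Or.inl rfl)]
  · unfold red
    rw [if_pos (Or.inr rfl)]

theorem cst_add (f g : MvPolynomial Q.Col L) :
    (QD.cst (f + g) : AA Q.Col L) = QD.cst f + QD.cst g := by
  unfold QD.cst toK
  rw [map_add, AddMonoidAlgebra.single_add]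

theorem cst_mul (f g : MvPolynomial Q.Col L) :
    (QD.cst (f * g) : AA Q.Col L) = QD.cst f * QD.cst g := by
  unfold QD.cst toK
  rw [map_mul, AddMonoidAlgebra.single_mul_single, zero_add]

/-- `A = R + II` -/
theorem A_eq {z : AA Q.Col L} (hz : z ∈ (core Q m).A) :
    ∃ r ∈ (core Q m).R, ∃ y ∈ (core Q m).II, z = QD.cst r + y := by
  refine Algebra.adjoin_induction (R := L) (A := AA Q.Col L)
    (p := fun z _ => ∃ r ∈ (core Q m).R, ∃ y ∈ (core Q m).II, z = QD.cst r + y) ?_ ?_ ?_ ?_ hz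
  · rintro x ⟨F, hF, rfl⟩
    refine ⟨F ∅ + F Finset.univ, ?_, _, red_mem_II Q m hF, M_red Q m F⟩
    intro σ hσ
    rw [map_add, ← hF σ hσ, ← hF σ hσ, TB.vact_empty, TB.vact_univ]
  · intro r
    refine ⟨C r, fun σ _ => rename_C _ _, 0, zero_mem _, ?_⟩
    rw [algebraMap_AA, add_zero]
    rfl
  · rintro _ _ _ _ ⟨r, hr, y, hy, rfl⟩ ⟨r', hr', y', hy', rfl⟩
    refine ⟨r + r', add_mem hr hr', y + y', add_mem hy hy', ?_⟩
    rw [cst_add]
    ring
  · rintro _ _ _ _ ⟨r, hr, y, hy, rfl⟩ ⟨r', hr', y', hy', rfl⟩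
    refine ⟨r * r', mul_mem hr hr', (QD.cst r + y) * y' + QD.cst r' * y, ?_, ?_⟩
    · exact add_mem (TB.II_mul_mem _ (add_mem (cst_mem _ hr) (H125.II_le_A _ hy)) hy')
        (TB.II_mul_mem _ (cst_mem _ hr') hy)
    · rw [cst_mul]
      ring

theorem phiC_surjective [Algebra ℚ L] (hν : Q.Generic ν) : Function.Surjective (Q.phiC m ν) := by
  intro y
  obtain ⟨x, rfl⟩ := Ideal.Quotient.mk_surjective y
  obtain ⟨r, hr, y, hy, h⟩ := A_eq Q m ((mem_alg Q m _).mp x.2)
  refine ⟨⟨r, (mem_inv Q m _).mpr hr⟩, ?_⟩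
  have h2 : x - Q.toAF m ⟨r, (mem_inv Q m _).mpr hr⟩ ∈ Q.J m ν := by
    rw [mem_J_iff Q m ν hν]
    have h3 : (Q.val m (x - Q.toAF m ⟨r, (mem_inv Q m _).mpr hr⟩) : AA Q.Col L) = y := by
      rw [map_sub]
      have h4 : (Q.val m x : AA Q.Col L) = QD.cst r + y := h
      have h5 : (Q.val m (Q.toAF m ⟨r, (mem_inv Q m _).mpr hr⟩) : AA Q.Col L) = QD.cst r := rfl
      exact (congrArg₂ (fun (a b : AA Q.Col L) => a - b) h4 h5).trans (add_sub_cancel_left _ _)
    rwa [h3]
  rw [← Ideal.Quotient.eq_zero_iff_mem, map_sub, sub_eq_zero] at h2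
  exact h2.symm

theorem mem_ker_phiC [Algebra ℚ L] (hν : Q.Generic ν) (r : Q.RR L) :
    r ∈ RingHom.ker (Q.phiC m ν) ↔ (Q.toSS L r : MvPolynomial Q.Col L) ∈ (core Q m).JC := by
  have h1 : r ∈ RingHom.ker (Q.phiC m ν) ↔ Q.toAF m r ∈ Q.J m ν :=
    Ideal.Quotient.eq_zero_iff_mem
  rw [h1, mem_J_iff Q m ν hν]
  constructor
  · intro h
    exact ⟨(mem_inv Q m _).mp r.2, h⟩
  · intro h
    exact h.2

end Vale.Agent.P291.Fin
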